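import Vale.Agent.P137.Main

/-!
P137: the uncentred maximal function maps `W^{1,1}` to locally `W^{1,1}` functions with a
dimensional bound on the `L^1` norm of the gradient, in every dimension `d ≥ 2`.
-/

namespace Vale.Agent.Results.P137.UncentredEndpoint

open MeasureTheory
open scoped ENNReal

/-- For every `d ≥ 2` there is `C` such that for every `f` in `W^{1,1}` with weak gradient `g`, the
uncentred maximal function over Euclidean balls is finite almost everywhere, locally integrable,
and has a weak gradient `h` with `∫ ‖h‖ ≤ C ∫ ‖g‖`. -/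
theorem result : ∀ d : ℕ, 2 ≤ d → ∃ C : ℝ, 0 ≤ C ∧
    ∀ (f : EuclideanSpace ℝ (Fin d) → ℝ)
      (g : EuclideanSpace ℝ (Fin d) → EuclideanSpace ℝ (Fin d)),
      Integrable f → Integrable g → Vale.Agent.P137.IsWeakGrad f g →
        (∀ᵐ x, Vale.Agent.P137.Mtilde f x < ⊤) ∧
          LocallyIntegrable (fun x => (Vale.Agent.P137.Mtilde f x).toReal) ∧
          ∃ h : EuclideanSpace ℝ (Fin d) → EuclideanSpace ℝ (Fin d), Integrable h ∧
            Vale.Agent.P137.IsWeakGrad (fun x => (Vale.Agent.P137.Mtilde f x).toReal) h ∧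
            (∫ x, ‖h x‖) ≤ C * ∫ x, ‖g x‖ :=
  fun _ hd => Vale.Agent.P137.uncentred_endpoint hd

end Vale.Agent.Results.P137.UncentredEndpoint
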